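import Mathlib

/-!
Weighted conditional expectations on a finite set and the passage from a
Lipschitz contraction estimate for the sum of the conditional expectations to
the variance inequality of a sum of functions of the single labels.
-/

namespace KTV.H8

open Finset

section Wcexp

variable {X L : Type*} [DecidableEq L]

/-- Weighted average of `F` over the points of `T` with the same label as `x`. -/
noncomputable def wcexp (T : Finset X) (w : X → ℝ) (l : X → L) (F : X → ℝ) (x : X) : ℝ :=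
  (∑ y ∈ T.filter (fun y => l y = l x), w y * F y) /
    (∑ y ∈ T.filter (fun y => l y = l x), w y)

theorem wcexp_congr_label (T : Finset X) (w : X → ℝ) (l : X → L) (F : X → ℝ) {x x' : X}
    (h : l x = l x') : wcexp T w l F x = wcexp T w l F x' := by
  unfold wcexp
  rw [h]

theorem wcexp_symm (T : Finset X) (w : X → ℝ) (l : X → L) (F G : X → ℝ) :
    ∑ x ∈ T, w x * wcexp T w l F x * G x = ∑ x ∈ T, w x * F x * wcexp T w l G x := by
  have h1 : ∀ x ∈ T, w x * wcexp T w l F x * G x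
      = ∑ y ∈ T, if l y = l x then
          w x * G x * (w y * F y) / (∑ z ∈ T.filter (fun z => l z = l x), w z) else 0 := by
    intro x _
    unfold wcexp
    rw [← Finset.sum_filter, Finset.sum_div, Finset.mul_sum, Finset.sum_mul]
    refine Finset.sum_congr rfl fun y _ => ?_
    ring
  have h2 : ∀ x ∈ T, w x * F x * wcexp T w l G x
      = ∑ y ∈ T, if l y = l x then
          w y * G y * (w x * F x) / (∑ z ∈ T.filter (fun z => l z = l x), w z) else 0 := by
    intro x _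
    unfold wcexp
    rw [← Finset.sum_filter, Finset.sum_div, Finset.mul_sum]
    refine Finset.sum_congr rfl fun y _ => ?_
    ring
  rw [Finset.sum_congr rfl h1, Finset.sum_congr rfl h2, Finset.sum_comm]
  refine Finset.sum_congr rfl fun y _ => Finset.sum_congr rfl fun x _ => ?_
  by_cases h : l y = l x
  · rw [if_pos h, if_pos h.symm, h]
  · rw [if_neg h, if_neg (fun h' => h h'.symm)]

theorem wcexp_idem (T : Finset X) (w : X → ℝ) (l : X → L) (F : X → ℝ) (x : X) :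
    wcexp T w l (wcexp T w l F) x = wcexp T w l F x := by
  have h1 : ∑ y ∈ T.filter (fun y => l y = l x), w y * wcexp T w l F y
      = (∑ y ∈ T.filter (fun y => l y = l x), w y) * wcexp T w l F x := by
    rw [Finset.sum_mul]
    refine Finset.sum_congr rfl fun y hy => ?_
    rw [wcexp_congr_label T w l F (Finset.mem_filter.mp hy).2]
  have h2 : wcexp T w l (wcexp T w l F) x
      = (∑ y ∈ T.filter (fun y => l y = l x), w y * wcexp T w l F y) /
        (∑ y ∈ T.filter (fun y => l y = l x), w y) := rfl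
  rw [h2, h1]
  by_cases hW : (∑ y ∈ T.filter (fun y => l y = l x), w y) = 0
  · have : wcexp T w l F x = 0 := by
      unfold wcexp
      rw [hW, div_zero]
    rw [this, hW]
    simp
  · field_simp

theorem weight_le_fibre (T : Finset X) (w : X → ℝ) (hw : ∀ x ∈ T, 0 ≤ w x) (l : X → L)
    {x : X} (hx : x ∈ T) : w x ≤ ∑ y ∈ T.filter (fun y => l y = l x), w y := by
  have hmem : x ∈ T.filter (fun y => l y = l x) := Finset.mem_filter.mpr ⟨hx, rfl⟩
  exact Finset.single_le_sum (f := w)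
    (fun y hy => hw y (Finset.mem_filter.mp hy).1) hmem

/-- Functions of the label are fixed by the conditional expectation (up to the weight). -/
theorem wcexp_label (T : Finset X) (w : X → ℝ) (hw : ∀ x ∈ T, 0 ≤ w x) (l : X → L)
    (H : L → ℝ) {x : X} (hx : x ∈ T) :
    w x * wcexp T w l (fun y => H (l y)) x = w x * H (l x) := by
  have h1 : ∑ y ∈ T.filter (fun y => l y = l x), w y * H (l y)
      = (∑ y ∈ T.filter (fun y => l y = l x), w y) * H (l x) := by
    rw [Finset.sum_mul]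
    refine Finset.sum_congr rfl fun y hy => ?_
    rw [(Finset.mem_filter.mp hy).2]
  have h2 : wcexp T w l (fun y => H (l y)) x
      = (∑ y ∈ T.filter (fun y => l y = l x), w y * H (l y)) /
        (∑ y ∈ T.filter (fun y => l y = l x), w y) := rfl
  rw [h2, h1]
  by_cases hW : (∑ y ∈ T.filter (fun y => l y = l x), w y) = 0
  · have h3 : w x ≤ 0 := hW ▸ weight_le_fibre T w hw l hx
    have h4 : w x = 0 := le_antisymm h3 (hw x hx)
    rw [h4]
    simp
  · field_simp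

theorem wcexp_inner_label (T : Finset X) (w : X → ℝ) (hw : ∀ x ∈ T, 0 ≤ w x) (l : X → L)
    (F : X → ℝ) (H : L → ℝ) :
    ∑ x ∈ T, w x * wcexp T w l F x * H (l x) = ∑ x ∈ T, w x * F x * H (l x) := by
  rw [wcexp_symm]
  refine Finset.sum_congr rfl fun x hx => ?_
  have := wcexp_label T w hw l H hx
  calc w x * F x * wcexp T w l (fun y => H (l y)) x
      = F x * (w x * wcexp T w l (fun y => H (l y)) x) := by ring
    _ = F x * (w x * H (l x)) := by rw [this]
    _ = w x * F x * H (l x) := by ring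

theorem wcexp_mean (T : Finset X) (w : X → ℝ) (hw : ∀ x ∈ T, 0 ≤ w x) (l : X → L)
    (F : X → ℝ) : ∑ x ∈ T, w x * wcexp T w l F x = ∑ x ∈ T, w x * F x := by
  have := wcexp_inner_label T w hw l F (fun _ => 1)
  simpa using this

theorem wcexp_sq (T : Finset X) (w : X → ℝ) (l : X → L) (F : X → ℝ) :
    ∑ x ∈ T, w x * wcexp T w l F x ^ 2 = ∑ x ∈ T, w x * F x * wcexp T w l F x := by
  have h := wcexp_symm T w l F (wcexp T w l F)
  have h' : ∑ x ∈ T, w x * F x * wcexp T w l (wcexp T w l F) x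
      = ∑ x ∈ T, w x * F x * wcexp T w l F x :=
    Finset.sum_congr rfl fun x _ => by rw [wcexp_idem]
  rw [← h', ← h]
  refine Finset.sum_congr rfl fun x _ => ?_
  ring

end Wcexp

section PowerTrick

/-- The elementary power trick: a sequence with `b j ^ 2 ≤ a0 * b (j + 1)` and
`b (j + 1) ≤ E * q ^ (2 ^ (j + 1))` satisfies `b 0 ≤ q * a0`. -/
theorem power_trick_real (a0 q E : ℝ) (b : ℕ → ℝ) (ha0 : 0 ≤ a0) (hq : 0 ≤ q)
    (hcs : ∀ j, b j ^ 2 ≤ a0 * b (j + 1)) (hbd : ∀ j, b (j + 1) ≤ E * q ^ (2 ^ (j + 1))) :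
    b 0 ≤ q * a0 := by
  by_contra hcon
  rw [not_le] at hcon
  have hb0 : 0 < b 0 := lt_of_le_of_lt (mul_nonneg hq ha0) hcon
  have ha0' : 0 < a0 := by
    rcases ha0.lt_or_eq with h | h
    · exact h
    · exfalso
      have h1 := hcs 0
      rw [← h, zero_mul] at h1
      nlinarith
  -- ratios
  have hρ : ∀ j, (b 0 / a0) ^ (2 ^ j) ≤ b j / a0 := by
    intro j
    induction j with
    | zero => simp
    | succ j ih =>
      have h0 : 0 ≤ (b 0 / a0) ^ (2 ^ j) := by positivity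
      have h1 : ((b 0 / a0) ^ (2 ^ j)) ^ 2 ≤ (b j / a0) ^ 2 := by
        apply pow_le_pow_left₀ h0 ih
      have h2 : (b j / a0) ^ 2 ≤ b (j + 1) / a0 := by
        rw [div_pow, div_le_div_iff₀ (by positivity) ha0']
        have := hcs j
        nlinarith
      calc (b 0 / a0) ^ (2 ^ (j + 1)) = ((b 0 / a0) ^ (2 ^ j)) ^ 2 := by
            rw [← pow_mul, pow_succ]
        _ ≤ (b j / a0) ^ 2 := h1
        _ ≤ b (j + 1) / a0 := h2
  have hρ0 : q < b 0 / a0 := by
    rw [lt_div_iff₀ ha0']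
    exact hcon
  have hρpos : 0 < b 0 / a0 := lt_of_le_of_lt hq hρ0
  rcases hq.lt_or_eq with hq0 | hq0
  · -- q > 0
    set r := b 0 / a0 / q with hr
    have hr1 : 1 < r := by
      rw [hr, lt_div_iff₀ hq0]
      linarith
    have hbound : ∀ j : ℕ, r ^ (2 ^ (j + 1)) ≤ E / a0 := by
      intro j
      have h1 := hρ (j + 1)
      have h2 := hbd j
      have h3 : b (j + 1) / a0 ≤ E * q ^ (2 ^ (j + 1)) / a0 :=
        div_le_div_of_nonneg_right h2 ha0'.le
      have h4 : (b 0 / a0) ^ (2 ^ (j + 1)) ≤ E / a0 * q ^ (2 ^ (j + 1)) := by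
        calc (b 0 / a0) ^ (2 ^ (j + 1)) ≤ b (j + 1) / a0 := h1
          _ ≤ E * q ^ (2 ^ (j + 1)) / a0 := h3
          _ = E / a0 * q ^ (2 ^ (j + 1)) := by ring
      rw [hr, div_pow, div_le_iff₀ (by positivity)]
      exact h4
    have hbern : ∀ j : ℕ, 1 + ((j : ℝ) + 1) * (r - 1) ≤ E / a0 := by
      intro j
      have h1 := one_add_mul_le_pow (a := r - 1) (by linarith) (2 ^ (j + 1))
      have h2 : ((j : ℝ) + 1) ≤ ((2 ^ (j + 1) : ℕ) : ℝ) := by
        have : j + 1 ≤ 2 ^ (j + 1) := (Nat.lt_two_pow_self).le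
        exact_mod_cast this
      have h3 : ((j : ℝ) + 1) * (r - 1) ≤ ((2 ^ (j + 1) : ℕ) : ℝ) * (r - 1) :=
        mul_le_mul_of_nonneg_right h2 (by linarith)
      have h4 : (1 + (r - 1)) ^ (2 ^ (j + 1)) = r ^ (2 ^ (j + 1)) := by
        congr 1
        ring
      rw [h4] at h1
      linarith [hbound j]
    obtain ⟨N, hN⟩ := exists_nat_gt (E / a0 / (r - 1))
    have h5 := hbern N
    have h6 : E / a0 < (N : ℝ) * (r - 1) := by
      rw [div_lt_iff₀ (by linarith)] at hN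
      exact hN
    nlinarith
  · -- q = 0
    have h1 := hρ 1
    have h2 := hbd 0
    rw [← hq0] at h2
    simp at h2
    have h3 : b 1 / a0 ≤ 0 := div_nonpos_of_nonpos_of_nonneg h2 ha0'.le
    have h4 : 0 < (b 0 / a0) ^ (2 ^ 1) := by positivity
    linarith

end PowerTrick

section Contr

variable {X L κ : Type*} [Fintype κ] [DecidableEq L]

/-- Sum over the labels of the weighted conditional expectations. -/
noncomputable def wsum (T : Finset X) (w : X → ℝ) (lab : κ → X → L) (F : X → ℝ) (x : X) : ℝ :=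
  ∑ r, wcexp T w (lab r) F x

theorem wsum_symm (T : Finset X) (w : X → ℝ) (lab : κ → X → L) (F G : X → ℝ) :
    ∑ x ∈ T, w x * wsum T w lab F x * G x = ∑ x ∈ T, w x * F x * wsum T w lab G x := by
  unfold wsum
  simp only [Finset.mul_sum, Finset.sum_mul]
  rw [Finset.sum_comm]
  conv_rhs => rw [Finset.sum_comm]
  exact Finset.sum_congr rfl fun r _ => wcexp_symm T w (lab r) F G

theorem wsum_mean (T : Finset X) (w : X → ℝ) (hw : ∀ x ∈ T, 0 ≤ w x) (lab : κ → X → L)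
    (F : X → ℝ) :
    ∑ x ∈ T, w x * wsum T w lab F x = (Fintype.card κ : ℝ) * ∑ x ∈ T, w x * F x := by
  unfold wsum
  simp only [Finset.mul_sum]
  rw [Finset.sum_comm]
  rw [Finset.sum_congr rfl (fun r _ => wcexp_mean T w hw (lab r) F)]
  simp [Finset.mul_sum]

theorem wsum_quad (T : Finset X) (w : X → ℝ) (lab : κ → X → L) (F : X → ℝ) :
    ∑ x ∈ T, w x * F x * wsum T w lab F x = ∑ r, ∑ x ∈ T, w x * wcexp T w (lab r) F x ^ 2 := by
  unfold wsum
  simp only [Finset.mul_sum]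
  rw [Finset.sum_comm]
  exact Finset.sum_congr rfl fun r _ => (wcexp_sq T w (lab r) F).symm

theorem wsum_iter_symm (T : Finset X) (w : X → ℝ) (lab : κ → X → L) (t : ℕ) :
    ∀ F G : X → ℝ, ∑ x ∈ T, w x * ((wsum T w lab)^[t] F) x * G x
      = ∑ x ∈ T, w x * F x * ((wsum T w lab)^[t] G) x := by
  induction t with
  | zero => intro F G; simp
  | succ t ih =>
    intro F G
    rw [Function.iterate_succ_apply, ih, wsum_symm, Function.iterate_succ_apply']

theorem wsum_iter_mean_zero (T : Finset X) (w : X → ℝ) (hw : ∀ x ∈ T, 0 ≤ w x)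
    (lab : κ → X → L) (F : X → ℝ) (hF : ∑ x ∈ T, w x * F x = 0) (t : ℕ) :
    ∑ x ∈ T, w x * ((wsum T w lab)^[t] F) x = 0 := by
  induction t with
  | zero => simpa using hF
  | succ t ih =>
    rw [Function.iterate_succ_apply', wsum_mean T w hw, ih, mul_zero]

/-- Lipschitz bound along the adjacency on the support of the weight. -/
def LipOn (T : Finset X) (w : X → ℝ) (adj : X → X → Prop) (F : X → ℝ) (B : ℝ) : Prop :=
  ∀ x ∈ T, ∀ y ∈ T, 0 < w x → 0 < w y → adj x y → |F x - F y| ≤ B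

theorem lip_iter (T : Finset X) (w : X → ℝ) (lab : κ → X → L) (adj : X → X → Prop) (q : ℝ)
    (hcontr : ∀ (F : X → ℝ) (B : ℝ), LipOn T w adj F B →
      LipOn T w adj (wsum T w lab F) (q * B))
    (F : X → ℝ) (B : ℝ) (h : LipOn T w adj F B) (t : ℕ) :
    LipOn T w adj ((wsum T w lab)^[t] F) (q ^ t * B) := by
  induction t with
  | zero => simpa using h
  | succ t ih =>
    rw [Function.iterate_succ_apply']
    have := hcontr _ _ ih
    have e : q ^ (t + 1) * B = q * (q ^ t * B) := by ring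
    rw [e]
    exact this

theorem exists_osc_const (T : Finset X) (w : X → ℝ) (adj : X → X → Prop)
    (hconn : ∀ x ∈ T, ∀ y ∈ T, 0 < w x → 0 < w y →
      Relation.ReflTransGen (fun u v => adj u v ∧ v ∈ T ∧ 0 < w v) x y) :
    ∃ C : ℝ, 0 ≤ C ∧ ∀ (F : X → ℝ) (B : ℝ), 0 ≤ B → LipOn T w adj F B →
      ∀ x ∈ T, ∀ y ∈ T, 0 < w x → 0 < w y → |F x - F y| ≤ C * B := by
  classical
  have key : ∀ p : X × X, ∃ n : ℕ, p.1 ∈ T → p.2 ∈ T → 0 < w p.1 → 0 < w p.2 →
      ∀ (F : X → ℝ) (B : ℝ), 0 ≤ B → LipOn T w adj F B → |F p.1 - F p.2| ≤ (n : ℝ) * B := by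
    rintro ⟨x, y⟩
    by_cases hc : x ∈ T ∧ y ∈ T ∧ 0 < w x ∧ 0 < w y
    · obtain ⟨hx, hy, hwx, hwy⟩ := hc
      have hpath := hconn x hx y hy hwx hwy
      have : (y ∈ T ∧ 0 < w y) ∧ ∃ n : ℕ, ∀ (F : X → ℝ) (B : ℝ), 0 ≤ B → LipOn T w adj F B →
          |F x - F y| ≤ (n : ℝ) * B := by
        clear hy hwy
        induction hpath with
        | refl =>
          refine ⟨⟨hx, hwx⟩, 0, fun F B _ _ => ?_⟩
          simp
        | @tail u v _ hstep ih =>
          obtain ⟨⟨hu, hwu⟩, n, hn⟩ := ih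
          obtain ⟨hadj, hv, hwv⟩ := hstep
          refine ⟨⟨hv, hwv⟩, n + 1, fun F B hB hL => ?_⟩
          have h1 := hn F B hB hL
          have h2 := hL u hu v hv hwu hwv hadj
          have h3 : |F x - F v| ≤ |F x - F u| + |F u - F v| := abs_sub_le _ _ _
          push_cast
          linarith
      obtain ⟨_, n, hn⟩ := this
      exact ⟨n, fun _ _ _ _ => hn⟩
    · refine ⟨0, fun h1 h2 h3 h4 => ?_⟩
      exact absurd ⟨h1, h2, h3, h4⟩ hc
  choose n hn using key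
  refine ⟨∑ p ∈ T ×ˢ T, (n p : ℝ), Finset.sum_nonneg fun _ _ => Nat.cast_nonneg _, ?_⟩
  intro F B hB hL x hx y hy hwx hwy
  have h1 := hn (x, y) hx hy hwx hwy F B hB hL
  have h2 : (n (x, y) : ℝ) ≤ ∑ p ∈ T ×ˢ T, (n p : ℝ) :=
    Finset.single_le_sum (f := fun p => (n p : ℝ)) (fun _ _ => Nat.cast_nonneg _)
      (Finset.mem_product.mpr ⟨hx, hy⟩)
  calc |F x - F y| ≤ (n (x, y) : ℝ) * B := h1
    _ ≤ (∑ p ∈ T ×ˢ T, (n p : ℝ)) * B := mul_le_mul_of_nonneg_right h2 hB

theorem weighted_cs {Y : Type*} (T : Finset Y) (w : Y → ℝ) (hw : ∀ x ∈ T, 0 ≤ w x)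
    (F G : Y → ℝ) :
    (∑ x ∈ T, w x * F x * G x) ^ 2 ≤ (∑ x ∈ T, w x * F x ^ 2) * (∑ x ∈ T, w x * G x ^ 2) := by
  have h := Finset.sum_mul_sq_le_sq_mul_sq T (fun x => Real.sqrt (w x) * F x)
    (fun x => Real.sqrt (w x) * G x)
  have e1 : ∑ x ∈ T, (Real.sqrt (w x) * F x) * (Real.sqrt (w x) * G x)
      = ∑ x ∈ T, w x * F x * G x :=
    Finset.sum_congr rfl fun x hx => by
      rw [show Real.sqrt (w x) * F x * (Real.sqrt (w x) * G x)
        = (Real.sqrt (w x) * Real.sqrt (w x)) * F x * G x by ring, Real.mul_self_sqrt (hw x hx)]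
  have e2 : ∑ x ∈ T, (Real.sqrt (w x) * F x) ^ 2 = ∑ x ∈ T, w x * F x ^ 2 :=
    Finset.sum_congr rfl fun x hx => by rw [mul_pow, Real.sq_sqrt (hw x hx)]
  have e3 : ∑ x ∈ T, (Real.sqrt (w x) * G x) ^ 2 = ∑ x ∈ T, w x * G x ^ 2 :=
    Finset.sum_congr rfl fun x hx => by rw [mul_pow, Real.sq_sqrt (hw x hx)]
  rw [e1, e2, e3] at h
  exact h

theorem sq_bound_of_mean_zero (T : Finset X) (w : X → ℝ) (hw : ∀ x ∈ T, 0 ≤ w x)
    (C : ℝ) (F : X → ℝ) (B : ℝ)
    (hosc : ∀ x ∈ T, ∀ y ∈ T, 0 < w x → 0 < w y → |F x - F y| ≤ C * B)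
    (hmean : ∑ x ∈ T, w x * F x = 0) :
    ∑ x ∈ T, w x * F x ^ 2 ≤ (∑ x ∈ T, w x) * (C * B) ^ 2 := by
  rw [Finset.sum_mul]
  refine Finset.sum_le_sum fun x hx => ?_
  rcases (hw x hx).lt_or_eq with hwx | hwx
  · have hW : 0 < ∑ y ∈ T, w y :=
      lt_of_lt_of_le hwx (Finset.single_le_sum (f := w) (fun y hy => hw y hy) hx)
    have h1 : (∑ y ∈ T, w y) * F x = ∑ y ∈ T, w y * (F x - F y) := by
      simp only [mul_sub, Finset.sum_sub_distrib, ← Finset.sum_mul]
      rw [hmean]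
      ring
    have h2 : |(∑ y ∈ T, w y) * F x| ≤ (∑ y ∈ T, w y) * (C * B) := by
      rw [h1, Finset.sum_mul]
      refine (Finset.abs_sum_le_sum_abs _ _).trans (Finset.sum_le_sum fun y hy => ?_)
      rw [abs_mul, abs_of_nonneg (hw y hy)]
      rcases (hw y hy).lt_or_eq with hwy | hwy
      · exact mul_le_mul_of_nonneg_left (hosc x hx y hy hwx hwy) (hw y hy)
      · rw [← hwy]
        simp
    rw [abs_mul, abs_of_pos hW] at h2
    have h3 : |F x| ≤ C * B := le_of_mul_le_mul_left h2 hW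
    have h4 : F x ^ 2 ≤ (C * B) ^ 2 := by
      rw [← sq_abs]
      exact pow_le_pow_left₀ (abs_nonneg _) h3 2
    exact mul_le_mul_of_nonneg_left h4 (hw x hx)
  · rw [← hwx]
    simp

/-- Spectral form: a Lipschitz contraction by the factor `q` of the sum of the
conditional expectations bounds its quadratic form on mean-zero functions. -/
theorem gap_of_contraction (T : Finset X) (w : X → ℝ) (hw : ∀ x ∈ T, 0 ≤ w x)
    (lab : κ → X → L) (adj : X → X → Prop) (q : ℝ) (hq : 0 ≤ q)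
    (hconn : ∀ x ∈ T, ∀ y ∈ T, 0 < w x → 0 < w y →
      Relation.ReflTransGen (fun u v => adj u v ∧ v ∈ T ∧ 0 < w v) x y)
    (hcontr : ∀ (F : X → ℝ) (B : ℝ), LipOn T w adj F B →
      LipOn T w adj (wsum T w lab F) (q * B))
    (F : X → ℝ) (hF : ∑ x ∈ T, w x * F x = 0) :
    ∑ x ∈ T, w x * F x * wsum T w lab F x ≤ q * ∑ x ∈ T, w x * F x ^ 2 := by
  obtain ⟨C, hC, hosc⟩ := exists_osc_const T w adj hconn
  set B0 : ℝ := 2 * ∑ x ∈ T, |F x| with hB0
  have hB0nn : 0 ≤ B0 := by positivity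
  have hL0 : LipOn T w adj F B0 := by
    intro x hx y hy _ _ _
    have h1 : |F x| ≤ ∑ z ∈ T, |F z| :=
      Finset.single_le_sum (f := fun z => |F z|) (fun _ _ => abs_nonneg _) hx
    have h2 : |F y| ≤ ∑ z ∈ T, |F z| :=
      Finset.single_le_sum (f := fun z => |F z|) (fun _ _ => abs_nonneg _) hy
    have h3 : |F x - F y| ≤ |F x| + |F y| := abs_sub _ _
    linarith
  have hnorm : ∀ t : ℕ, ∑ x ∈ T, w x * ((wsum T w lab)^[t] F) x ^ 2
      ≤ (∑ x ∈ T, w x) * (C * B0) ^ 2 * (q ^ t) ^ 2 := by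
    intro t
    have hL := lip_iter T w lab adj q hcontr F B0 hL0 t
    have hm := wsum_iter_mean_zero T w hw lab F hF t
    have := sq_bound_of_mean_zero T w hw C ((wsum T w lab)^[t] F) (q ^ t * B0)
      (hosc _ _ (by positivity) hL) hm
    calc ∑ x ∈ T, w x * ((wsum T w lab)^[t] F) x ^ 2
        ≤ (∑ x ∈ T, w x) * (C * (q ^ t * B0)) ^ 2 := this
      _ = (∑ x ∈ T, w x) * (C * B0) ^ 2 * (q ^ t) ^ 2 := by ring
  have hb_succ : ∀ j : ℕ, ∑ x ∈ T, w x * F x * ((wsum T w lab)^[2 ^ (j + 1)] F) x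
      = ∑ x ∈ T, w x * ((wsum T w lab)^[2 ^ j] F) x ^ 2 := by
    intro j
    have e : 2 ^ (j + 1) = 2 ^ j + 2 ^ j := by ring
    rw [e, Function.iterate_add_apply, ← wsum_iter_symm]
    exact Finset.sum_congr rfl fun x _ => by ring
  have hcs : ∀ j : ℕ, (∑ x ∈ T, w x * F x * ((wsum T w lab)^[2 ^ j] F) x) ^ 2
      ≤ (∑ x ∈ T, w x * F x ^ 2)
        * ∑ x ∈ T, w x * F x * ((wsum T w lab)^[2 ^ (j + 1)] F) x := by
    intro j
    rw [hb_succ]
    exact weighted_cs T w hw F ((wsum T w lab)^[2 ^ j] F)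
  have hbd : ∀ j : ℕ, ∑ x ∈ T, w x * F x * ((wsum T w lab)^[2 ^ (j + 1)] F) x
      ≤ ((∑ x ∈ T, w x) * (C * B0) ^ 2) * q ^ (2 ^ (j + 1)) := by
    intro j
    rw [hb_succ]
    have h := hnorm (2 ^ j)
    have e : (q ^ (2 ^ j)) ^ 2 = q ^ (2 ^ (j + 1)) := by rw [← pow_mul, pow_succ]
    rw [e] at h
    exact h
  have h := power_trick_real (∑ x ∈ T, w x * F x ^ 2) q ((∑ x ∈ T, w x) * (C * B0) ^ 2)
    (fun j => ∑ x ∈ T, w x * F x * ((wsum T w lab)^[2 ^ j] F) x)
    (Finset.sum_nonneg fun x hx => mul_nonneg (hw x hx) (sq_nonneg _)) hq hcs hbd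
  simpa using h

theorem wvar_eq (T : Finset X) (w : X → ℝ) (Φ : X → ℝ) (hW : (∑ x ∈ T, w x) ≠ 0) :
    (∑ x ∈ T, w x) * ∑ x ∈ T, w x * (Φ x - (∑ y ∈ T, w y * Φ y) / (∑ y ∈ T, w y)) ^ 2
      = (∑ x ∈ T, w x) * (∑ x ∈ T, w x * Φ x ^ 2) - (∑ x ∈ T, w x * Φ x) ^ 2 := by
  set W := ∑ x ∈ T, w x with hWdef
  set m := (∑ y ∈ T, w y * Φ y) / W with hm
  have h1 : ∑ x ∈ T, w x * (Φ x - m) ^ 2
      = ∑ x ∈ T, w x * Φ x ^ 2 - 2 * m * ∑ x ∈ T, w x * Φ x + m ^ 2 * W := by
    have : ∀ x ∈ T, w x * (Φ x - m) ^ 2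
        = w x * Φ x ^ 2 - 2 * m * (w x * Φ x) + m ^ 2 * w x := fun x _ => by ring
    rw [Finset.sum_congr rfl this, Finset.sum_add_distrib, Finset.sum_sub_distrib,
      ← Finset.mul_sum, ← Finset.mul_sum]
  have h2 : ∑ x ∈ T, w x * Φ x = m * W := by
    rw [hm]
    field_simp
  rw [h1, h2]
  ring

/-- From a Lipschitz contraction of the sum of the weighted conditional
expectations to the variance inequality for sums of functions of the labels. -/
theorem wtv2_of_contraction (T : Finset X) (w : X → ℝ) (hw : ∀ x ∈ T, 0 ≤ w x)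
    (lab : κ → X → L) (adj : X → X → Prop) (q : ℝ) (hq : 0 ≤ q)
    (hconn : ∀ x ∈ T, ∀ y ∈ T, 0 < w x → 0 < w y →
      Relation.ReflTransGen (fun u v => adj u v ∧ v ∈ T ∧ 0 < w v) x y)
    (hcontr : ∀ (F : X → ℝ) (B : ℝ),
      (∀ x ∈ T, ∀ y ∈ T, 0 < w x → 0 < w y → adj x y → |F x - F y| ≤ B) →
      ∀ x ∈ T, ∀ y ∈ T, 0 < w x → 0 < w y → adj x y →
        |(∑ r, wcexp T w (lab r) F x) - (∑ r, wcexp T w (lab r) F y)| ≤ q * B)
    (G : κ → L → ℝ) :
    (∑ x ∈ T, w x) * (∑ x ∈ T, w x * (∑ r, G r (lab r x)) ^ 2)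
        - (∑ x ∈ T, w x * ∑ r, G r (lab r x)) ^ 2
      ≤ q * ∑ r, ((∑ x ∈ T, w x) * (∑ x ∈ T, w x * G r (lab r x) ^ 2)
        - (∑ x ∈ T, w x * G r (lab r x)) ^ 2) := by
  by_cases hW0 : (∑ x ∈ T, w x) = 0
  · have hz : ∀ x ∈ T, w x = 0 := (Finset.sum_eq_zero_iff_of_nonneg hw).mp hW0
    have hz' : ∀ Φ : X → ℝ, ∑ x ∈ T, w x * Φ x = 0 := fun Φ =>
      Finset.sum_eq_zero fun x hx => by rw [hz x hx, zero_mul]
    simp [hW0, hz']
  have hWpos : 0 < ∑ x ∈ T, w x := lt_of_le_of_ne (Finset.sum_nonneg hw) (Ne.symm hW0)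
  set W := ∑ x ∈ T, w x with hWdef
  -- centred label functions
  set m : κ → ℝ := fun r => (∑ y ∈ T, w y * G r (lab r y)) / W with hm
  set H : κ → L → ℝ := fun r lam => G r lam - m r with hH
  set Ft : X → ℝ := fun x => ∑ r, H r (lab r x) with hFt
  have hmeanH : ∀ r, ∑ x ∈ T, w x * H r (lab r x) = 0 := by
    intro r
    simp only [hH, mul_sub, Finset.sum_sub_distrib, ← Finset.sum_mul]
    rw [hm]
    field_simp
    ring
  have hmeanF : ∑ x ∈ T, w x * Ft x = 0 := by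
    simp only [hFt, Finset.mul_sum]
    rw [Finset.sum_comm]
    exact Finset.sum_eq_zero fun r _ => hmeanH r
  -- variance identities
  have hvarG : ∀ r, W * (∑ x ∈ T, w x * G r (lab r x) ^ 2) - (∑ x ∈ T, w x * G r (lab r x)) ^ 2
      = W * ∑ x ∈ T, w x * H r (lab r x) ^ 2 := by
    intro r
    exact (wvar_eq T w (fun x => G r (lab r x)) hW0).symm
  have hmsum : (∑ y ∈ T, w y * ∑ r, G r (lab r y)) / W = ∑ r, m r := by
    simp only [hm, Finset.mul_sum]
    rw [Finset.sum_comm, Finset.sum_div]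
  have hvarF : W * (∑ x ∈ T, w x * (∑ r, G r (lab r x)) ^ 2)
        - (∑ x ∈ T, w x * ∑ r, G r (lab r x)) ^ 2
      = W * ∑ x ∈ T, w x * Ft x ^ 2 := by
    rw [← wvar_eq T w (fun x => ∑ r, G r (lab r x)) hW0]
    congr 1
    refine Finset.sum_congr rfl fun x _ => ?_
    rw [hmsum]
    simp only [hFt, hH, Finset.sum_sub_distrib]
  rw [hvarF, Finset.sum_congr rfl (fun r _ => hvarG r), ← Finset.mul_sum]
  -- the three quantities
  set P := ∑ x ∈ T, w x * Ft x ^ 2 with hP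
  set Q := ∑ r, ∑ x ∈ T, w x * H r (lab r x) ^ 2 with hQ
  set R := ∑ r, ∑ x ∈ T, w x * wcexp T w (lab r) Ft x ^ 2 with hR
  have hPnn : 0 ≤ P := Finset.sum_nonneg fun x hx => mul_nonneg (hw x hx) (sq_nonneg _)
  have hQnn : 0 ≤ Q := Finset.sum_nonneg fun r _ =>
    Finset.sum_nonneg fun x hx => mul_nonneg (hw x hx) (sq_nonneg _)
  have hRq : R ≤ q * P := by
    rw [hR, ← wsum_quad]
    exact gap_of_contraction T w hw lab adj q hq hconn (fun F B h => hcontr F B h) Ft hmeanF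
  have hPeq : P = ∑ r, ∑ x ∈ T, w x * wcexp T w (lab r) Ft x * H r (lab r x) := by
    have h1 : ∀ r, ∑ x ∈ T, w x * wcexp T w (lab r) Ft x * H r (lab r x)
        = ∑ x ∈ T, w x * Ft x * H r (lab r x) := fun r =>
      wcexp_inner_label T w hw (lab r) Ft (H r)
    rw [Finset.sum_congr rfl (fun r _ => h1 r), Finset.sum_comm, hP]
    refine Finset.sum_congr rfl fun x _ => ?_
    rw [← Finset.mul_sum]
    ring
  have hCS : P ^ 2 ≤ R * Q := by
    have h := weighted_cs ((Finset.univ : Finset κ) ×ˢ T) (fun p => w p.2)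
      (fun p hp => hw p.2 (Finset.mem_product.mp hp).2)
      (fun p => wcexp T w (lab p.1) Ft p.2) (fun p => H p.1 (lab p.1 p.2))
    rw [Finset.sum_product, Finset.sum_product, Finset.sum_product] at h
    rw [hPeq]
    exact h
  have hfin : P ≤ q * Q := by
    rcases hPnn.lt_or_eq with hPpos | hP0
    · have h1 : P ^ 2 ≤ q * P * Q :=
        hCS.trans (mul_le_mul_of_nonneg_right hRq hQnn)
      have h2 : P * P ≤ P * (q * Q) := by nlinarith
      exact le_of_mul_le_mul_left h2 hPpos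
    · rw [← hP0]
      exact mul_nonneg hq hQnn
  calc W * P ≤ W * (q * Q) := mul_le_mul_of_nonneg_left hfin hWpos.le
    _ = q * (W * Q) := by ring

end Contr

end KTV.H8
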