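import Mathlib

namespace KTV.H8

open Finset

section Coupling

/-- Log-concavity with interval support gives the pairwise ratio inequality. -/
theorem pairwise_of_logconcave (μ : ℕ → ℝ) (hμ : ∀ k, 0 ≤ μ k)
    (hlc : ∀ k, μ k * μ (k + 2) ≤ μ (k + 1) ^ 2)
    (hint : ∀ i j k, i ≤ j → j ≤ k → 0 < μ i → 0 < μ k → 0 < μ j) :
    ∀ x y, x < y → μ x * μ (y + 1) ≤ μ (x + 1) * μ y := by
  intro x y hxy
  obtain ⟨d, rfl⟩ : ∃ d, y = x + 1 + d := ⟨y - (x + 1), by omega⟩
  clear hxy
  induction d with
  | zero =>
    have := hlc x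
    simp only [Nat.add_zero]
    nlinarith
  | succ d ih =>
    have e : x + 1 + (d + 1) = x + 1 + d + 1 := by ring
    rw [e]
    set y := x + 1 + d with hy
    have h1 := hlc y
    rcases (hμ (y + 1)).lt_or_eq with hpos | hzero
    · -- multiply and cancel
      have h2 : μ x * μ (y + 1) * μ (y + 1 + 1) ≤ μ (x + 1) * μ (y + 1) * μ (y + 1) := by
        calc μ x * μ (y + 1) * μ (y + 1 + 1)
            ≤ μ (x + 1) * μ y * μ (y + 1 + 1) :=
              mul_le_mul_of_nonneg_right ih (hμ _)
          _ = μ (x + 1) * (μ y * μ (y + 2)) := by ring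
          _ ≤ μ (x + 1) * μ (y + 1) ^ 2 := mul_le_mul_of_nonneg_left h1 (hμ _)
          _ = μ (x + 1) * μ (y + 1) * μ (y + 1) := by ring
      have h3 : μ (y + 1) * (μ x * μ (y + 1 + 1)) ≤ μ (y + 1) * (μ (x + 1) * μ (y + 1)) := by
        linarith
      exact le_of_mul_le_mul_left h3 hpos
    · rw [← hzero, mul_zero]
      by_contra hcon
      rw [not_le] at hcon
      have hx : 0 < μ x := by
        rcases (hμ x).lt_or_eq with h | h
        · exact h
        · rw [← h, zero_mul] at hcon
          exact absurd hcon (lt_irrefl _)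
      have hy2 : 0 < μ (y + 1 + 1) := by
        rcases (hμ (y + 1 + 1)).lt_or_eq with h | h
        · exact h
        · rw [← h, mul_zero] at hcon
          exact absurd hcon (lt_irrefl _)
      have := hint x (y + 1) (y + 1 + 1) (by omega) (by omega) hx hy2
      linarith

/-- Initial-segment comparison for two sequences with the pairwise ratio inequality. -/
theorem tp2_initial (x y : ℕ → ℝ) (k m : ℕ) (hkm : k ≤ m)
    (h : ∀ i j, i < j → j < m → x i * y j ≤ x j * y i) :
    (∑ i ∈ range k, x i) * (∑ j ∈ range m, y j) ≤ (∑ i ∈ range k, y i) * (∑ j ∈ range m, x j) := by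
  have hy := Finset.sum_range_add_sum_Ico y hkm
  have hx := Finset.sum_range_add_sum_Ico x hkm
  have key : (∑ i ∈ range k, x i) * (∑ j ∈ Ico k m, y j)
      ≤ (∑ i ∈ range k, y i) * (∑ j ∈ Ico k m, x j) := by
    rw [Finset.sum_mul_sum, Finset.sum_mul_sum]
    refine Finset.sum_le_sum fun i hi => Finset.sum_le_sum fun j hj => ?_
    have hi' := Finset.mem_range.mp hi
    have hj' := Finset.mem_Ico.mp hj
    have := h i j (by omega) hj'.2
    linarith [mul_comm (x j) (y i)]
  rw [← hy, ← hx, mul_add, mul_add]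
  linarith [mul_comm (∑ i ∈ range k, x i) (∑ i ∈ range k, y i)]

/-- Two weight sequences on neighbouring segments, interlaced in the monotone
likelihood ratio sense, have weighted averages differing by at most the
Lipschitz bound between neighbouring points. -/
theorem coupling_bound (n : ℕ) (a b f g : ℕ → ℝ) (B : ℝ)
    (ha : ∀ k, 0 ≤ a k) (hb : ∀ k, 0 ≤ b k)
    (h1 : ∀ i j, i < j → j ≤ n → a i * b j ≤ a j * b i)
    (h2 : ∀ i j, i < j → j ≤ n → b i * a (j + 1) ≤ a (i + 1) * b j)
    (hf : ∀ k, k ≤ n → 0 < a k → 0 < b k → |f k - g k| ≤ B)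
    (hg : ∀ k, k ≤ n → 0 < a (k + 1) → 0 < b k → |f (k + 1) - g k| ≤ B)
    (hA : 0 < ∑ k ∈ range (n + 2), a k) (hB : 0 < ∑ k ∈ range (n + 1), b k) :
    |(∑ k ∈ range (n + 2), a k * f k) / (∑ k ∈ range (n + 2), a k)
      - (∑ k ∈ range (n + 1), b k * g k) / (∑ k ∈ range (n + 1), b k)| ≤ B := by
  set A := ∑ k ∈ range (n + 2), a k with hAdef
  set Bs := ∑ k ∈ range (n + 1), b k with hBdef
  set PA : ℕ → ℝ := fun k => ∑ i ∈ range k, a i with hPA
  set PB : ℕ → ℝ := fun k => ∑ i ∈ range k, b i with hPB
  have hPAs : ∀ k, PA (k + 1) = PA k + a k := fun k => Finset.sum_range_succ _ _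
  have hPBs : ∀ k, PB (k + 1) = PB k + b k := fun k => Finset.sum_range_succ _ _
  have hPA0 : PA 0 = 0 := Finset.sum_range_zero _
  have hPB0 : PB 0 = 0 := Finset.sum_range_zero _
  have hPAn : PA (n + 2) = A := rfl
  have hPBn : PB (n + 1) = Bs := rfl
  set U : ℕ → ℝ := fun k => PA (k + 1) * Bs - PB k * A with hU
  set V : ℕ → ℝ := fun k => PB (k + 1) * A - PA (k + 1) * Bs with hV
  have hVnn : ∀ k, k ≤ n → 0 ≤ V k := by
    intro k hk
    have h := tp2_initial a b (k + 1) (n + 1) (by omega) (fun i j hij hj => h1 i j hij (by omega))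
    have hle : PA (n + 1) ≤ A := by
      rw [← hPAn, hPAs (n + 1)]
      linarith [ha (n + 1)]
    have hPBnn : 0 ≤ PB (k + 1) := Finset.sum_nonneg fun i _ => hb i
    have h' : PA (k + 1) * Bs ≤ PB (k + 1) * PA (n + 1) := h
    have h'' : PB (k + 1) * PA (n + 1) ≤ PB (k + 1) * A := mul_le_mul_of_nonneg_left hle hPBnn
    simp only [hV]
    linarith
  have hUnn : ∀ k, k ≤ n + 1 → 0 ≤ U k := by
    intro k hk
    have h := tp2_initial b (fun j => a (j + 1)) k (n + 1) hk
      (fun i j hij hj => (h2 i j hij (by omega)).trans (le_of_eq (mul_comm _ _)))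
    have e1 : ∑ j ∈ range (n + 1), a (j + 1) = A - a 0 := by
      rw [hAdef, Finset.sum_range_succ' _ (n + 1)]
      ring
    have e2 : ∑ i ∈ range k, a (i + 1) = PA (k + 1) - a 0 := by
      simp only [hPA]
      rw [Finset.sum_range_succ' _ k]
      ring
    rw [e1, e2] at h
    have hPBle : PB k ≤ Bs := by
      rw [← hPBn]
      exact Finset.sum_le_sum_of_subset_of_nonneg (Finset.range_subset_range.mpr hk)
        (fun i _ _ => hb i)
    have h' : PB k * (A - a 0) ≤ (PA (k + 1) - a 0) * Bs := h
    have h3 : a 0 * PB k ≤ a 0 * Bs := mul_le_mul_of_nonneg_left hPBle (ha 0)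
    simp only [hU]
    linarith
  have hU0 : U 0 = a 0 * Bs := by
    simp only [hU]
    rw [hPAs 0, hPA0, hPB0]
    ring
  have hUs : ∀ k, U (k + 1) = a (k + 1) * Bs - V k := by
    intro k
    simp only [hU, hV]
    rw [hPAs (k + 1)]
    ring
  have hUV : ∀ k, U k + V k = b k * A := by
    intro k
    simp only [hU, hV]
    rw [hPBs k]
    ring
  have hUl : U (n + 1) = 0 := by
    simp only [hU]
    rw [hPAn, hPBn]
    ring
  have hS1 : Bs * (∑ k ∈ range (n + 2), a k * f k)
      = ∑ k ∈ range (n + 1), U k * f k + ∑ k ∈ range (n + 1), V k * f (k + 1) := by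
    rw [Finset.mul_sum, Finset.sum_range_succ' _ (n + 1)]
    have hterm : ∀ k ∈ range (n + 1), Bs * (a (k + 1) * f (k + 1))
        = U (k + 1) * f (k + 1) + V k * f (k + 1) := by
      intro k _
      rw [hUs k]
      ring
    rw [Finset.sum_congr rfl hterm, Finset.sum_add_distrib]
    have e1 := Finset.sum_range_succ' (fun k => U k * f k) (n + 1)
    have e2 := Finset.sum_range_succ (fun k => U k * f k) (n + 1)
    rw [hUl, zero_mul, add_zero] at e2
    rw [hU0] at e1
    linarith
  have hS2 : A * (∑ k ∈ range (n + 1), b k * g k)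
      = ∑ k ∈ range (n + 1), U k * g k + ∑ k ∈ range (n + 1), V k * g k := by
    rw [Finset.mul_sum, ← Finset.sum_add_distrib]
    refine Finset.sum_congr rfl fun k _ => ?_
    have := hUV k
    calc A * (b k * g k) = (b k * A) * g k := by ring
      _ = (U k + V k) * g k := by rw [this]
      _ = U k * g k + V k * g k := by ring
  have hmain : Bs * (∑ k ∈ range (n + 2), a k * f k) - A * (∑ k ∈ range (n + 1), b k * g k)
      = ∑ k ∈ range (n + 1), U k * (f k - g k)
        + ∑ k ∈ range (n + 1), V k * (f (k + 1) - g k) := by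
    rw [hS1, hS2]
    simp only [mul_sub, Finset.sum_sub_distrib]
    ring
  have hUb : ∀ k ∈ range (n + 1), |U k * (f k - g k)| ≤ U k * B := by
    intro k hk
    have hk' : k ≤ n := by
      have := Finset.mem_range.mp hk
      omega
    have hUk := hUnn k (by omega)
    rw [abs_mul, abs_of_nonneg hUk]
    rcases hUk.lt_or_eq with hpos | hzero
    · have hbk : 0 < b k := by
        have h3 : 0 < b k * A := by
          have := hUV k
          have := hVnn k hk'
          linarith
        exact (mul_pos_iff_of_pos_right hA).mp h3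
      have hak : 0 < a k := by
        have h3 : 0 < a k * Bs := by
          rcases Nat.eq_zero_or_pos k with h0 | h0
          · subst h0
            rw [← hU0]
            exact hpos
          · obtain ⟨j, rfl⟩ : ∃ j, k = j + 1 := ⟨k - 1, by omega⟩
            have := hUs j
            have := hVnn j (by omega)
            linarith
        exact (mul_pos_iff_of_pos_right hB).mp h3
      exact mul_le_mul_of_nonneg_left (hf k hk' hak hbk) hUk
    · rw [← hzero]
      simp
  have hVb : ∀ k ∈ range (n + 1), |V k * (f (k + 1) - g k)| ≤ V k * B := by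
    intro k hk
    have hk' : k ≤ n := by
      have := Finset.mem_range.mp hk
      omega
    have hVk := hVnn k hk'
    rw [abs_mul, abs_of_nonneg hVk]
    rcases hVk.lt_or_eq with hpos | hzero
    · have hbk : 0 < b k := by
        have h3 : 0 < b k * A := by
          have := hUV k
          have := hUnn k (by omega)
          linarith
        exact (mul_pos_iff_of_pos_right hA).mp h3
      have hak : 0 < a (k + 1) := by
        have h3 : 0 < a (k + 1) * Bs := by
          have := hUs k
          have := hUnn (k + 1) (by omega)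
          linarith
        exact (mul_pos_iff_of_pos_right hB).mp h3
      exact mul_le_mul_of_nonneg_left (hg k hk' hak hbk) hVk
    · rw [← hzero]
      simp
  have htot : ∑ k ∈ range (n + 1), U k * B + ∑ k ∈ range (n + 1), V k * B = B * (A * Bs) := by
    rw [← Finset.sum_add_distrib]
    have : ∀ k ∈ range (n + 1), U k * B + V k * B = B * A * b k := by
      intro k _
      have := hUV k
      calc U k * B + V k * B = (U k + V k) * B := by ring
        _ = b k * A * B := by rw [this]
        _ = B * A * b k := by ring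
    rw [Finset.sum_congr rfl this, ← Finset.mul_sum]
    ring
  have habs : |Bs * (∑ k ∈ range (n + 2), a k * f k) - A * (∑ k ∈ range (n + 1), b k * g k)|
      ≤ B * (A * Bs) := by
    rw [hmain, ← htot]
    refine (abs_add_le _ _).trans (add_le_add ?_ ?_)
    · exact (Finset.abs_sum_le_sum_abs _ _).trans (Finset.sum_le_sum hUb)
    · exact (Finset.abs_sum_le_sum_abs _ _).trans (Finset.sum_le_sum hVb)
  have hdiv : (∑ k ∈ range (n + 2), a k * f k) / A - (∑ k ∈ range (n + 1), b k * g k) / Bs
      = (Bs * (∑ k ∈ range (n + 2), a k * f k) - A * (∑ k ∈ range (n + 1), b k * g k))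
        / (A * Bs) := by
    field_simp
  rw [hdiv, abs_div, abs_of_pos (mul_pos hA hB), div_le_iff₀ (mul_pos hA hB)]
  exact habs

end Coupling

end KTV.H8
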