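import Vale.Agent.Helper8.KTV.Contraction
import Vale.Agent.Helper8.KTV.Coupling

/-!
Three log-concave sites with conserved sum: connectivity of the support in the
triangular lattice, the contraction estimate for the three conditional
expectations along lattice edges, and the resulting variance inequality.
-/

namespace KTV.H8

open Finset

section Lattice

/-- Lattice adjacency on triples: one unit moves from coordinate `q` to coordinate `p`. -/
def latAdj (ν ν' : Fin 3 → ℕ) : Prop :=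
  ∃ p q : Fin 3, p ≠ q ∧ ν' p = ν p + 1 ∧ ν q = ν' q + 1 ∧ ∀ t, t ≠ p → t ≠ q → ν' t = ν t

theorem fin3_univ {p q t : Fin 3} (hpq : p ≠ q) (hpt : p ≠ t) (hqt : q ≠ t) :
    (univ : Finset (Fin 3)) = {p, q, t} := by
  symm
  apply Finset.eq_univ_of_card
  rw [Finset.card_insert_of_notMem (by simp [hpq, hpt]),
    Finset.card_insert_of_notMem (by simp [hqt]), Finset.card_singleton]
  simp

theorem fin3_sum {A : Type*} [AddCommMonoid A] (f : Fin 3 → A) {p q t : Fin 3} (hpq : p ≠ q)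
    (hpt : p ≠ t) (hqt : q ≠ t) : ∑ r, f r = f p + f q + f t := by
  rw [fin3_univ hpq hpt hqt, Finset.sum_insert (by simp [hpq, hpt]),
    Finset.sum_insert (by simp [hqt]), Finset.sum_singleton, add_assoc]

theorem fin3_prod {A : Type*} [CommMonoid A] (f : Fin 3 → A) {p q t : Fin 3} (hpq : p ≠ q)
    (hpt : p ≠ t) (hqt : q ≠ t) : ∏ r, f r = f p * f q * f t := by
  rw [fin3_univ hpq hpt hqt, Finset.prod_insert (by simp [hpq, hpt]),
    Finset.prod_insert (by simp [hqt]), Finset.prod_singleton, mul_assoc]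

theorem fin3_third : ∀ p q : Fin 3, p ≠ q → ∃ t, p ≠ t ∧ q ≠ t := by decide

theorem fin3_cases : ∀ p q t : Fin 3, p ≠ q → p ≠ t → q ≠ t → ∀ r, r = p ∨ r = q ∨ r = t := by
  decide

/-- The point with coordinates `c` at `p`, `k` at `q` and `m` elsewhere. -/
def pt (p q : Fin 3) (c k m : ℕ) : Fin 3 → ℕ := fun r => if r = p then c else if r = q then k else m

theorem pt_p (p q : Fin 3) (c k m : ℕ) : pt p q c k m p = c := by simp [pt]

theorem pt_q {p q : Fin 3} (hpq : p ≠ q) (c k m : ℕ) : pt p q c k m q = k := by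
  simp [pt, hpq.symm]

theorem pt_t {p q t : Fin 3} (hpt : p ≠ t) (hqt : q ≠ t) (c k m : ℕ) : pt p q c k m t = m := by
  simp [pt, hpt.symm, hqt.symm]

theorem pt_mem {p q t : Fin 3} (hpq : p ≠ q) (hpt : p ≠ t) (hqt : q ≠ t) (c k m M : ℕ)
    (h : c + k + m = M) : pt p q c k m ∈ Finset.Nat.antidiagonalTuple 3 M := by
  rw [Finset.Nat.mem_antidiagonalTuple, fin3_sum _ hpq hpt hqt, pt_p, pt_q hpq, pt_t hpt hqt, h]

theorem pt_eq {p q t : Fin 3} (hpq : p ≠ q) (hpt : p ≠ t) (hqt : q ≠ t) (ξ : Fin 3 → ℕ) :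
    pt p q (ξ p) (ξ q) (ξ t) = ξ := by
  funext r
  rcases fin3_cases p q t hpq hpt hqt r with h | h | h
  · rw [h, pt_p]
  · rw [h, pt_q hpq]
  · rw [h, pt_t hpt hqt]

theorem seg_sum (M : ℕ) {p q t : Fin 3} (hpq : p ≠ q) (hpt : p ≠ t) (hqt : q ≠ t) (c : ℕ)
    (hc : c ≤ M) (φ : (Fin 3 → ℕ) → ℝ) :
    ∑ ξ ∈ (Finset.Nat.antidiagonalTuple 3 M).filter (fun ξ => ξ p = c), φ ξ
      = ∑ k ∈ range (M - c + 1), φ (pt p q c k (M - c - k)) := by
  refine Finset.sum_nbij' (fun ξ => ξ q) (fun k => pt p q c k (M - c - k)) ?_ ?_ ?_ ?_ ?_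
  · intro ξ hξ
    obtain ⟨h1, h2⟩ := Finset.mem_filter.mp hξ
    rw [Finset.Nat.mem_antidiagonalTuple, fin3_sum _ hpq hpt hqt] at h1
    rw [Finset.mem_range]
    omega
  · intro k hk
    rw [Finset.mem_range] at hk
    refine Finset.mem_filter.mpr ⟨pt_mem hpq hpt hqt _ _ _ _ ?_, pt_p _ _ _ _ _⟩
    omega
  · intro ξ hξ
    obtain ⟨h1, h2⟩ := Finset.mem_filter.mp hξ
    rw [Finset.Nat.mem_antidiagonalTuple, fin3_sum _ hpq hpt hqt] at h1
    have e : M - c - ξ q = ξ t := by omega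
    rw [e, ← h2]
    exact pt_eq hpq hpt hqt ξ
  · intro k _
    exact pt_q hpq _ _ _
  · intro ξ hξ
    obtain ⟨h1, h2⟩ := Finset.mem_filter.mp hξ
    rw [Finset.Nat.mem_antidiagonalTuple, fin3_sum _ hpq hpt hqt] at h1
    have e : M - c - ξ q = ξ t := by omega
    rw [e, ← h2, pt_eq hpq hpt hqt ξ]

/-- Product weight of a triple. -/
noncomputable def wt (μ : Fin 3 → ℕ → ℝ) (ν : Fin 3 → ℕ) : ℝ := ∏ r, μ r (ν r)

theorem wt_pt (μ : Fin 3 → ℕ → ℝ) {p q t : Fin 3} (hpq : p ≠ q) (hpt : p ≠ t) (hqt : q ≠ t)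
    (c k m : ℕ) : wt μ (pt p q c k m) = μ p c * μ q k * μ t m := by
  unfold wt
  rw [fin3_prod _ hpq hpt hqt, pt_p, pt_q hpq, pt_t hpt hqt]

theorem wt_nonneg (μ : Fin 3 → ℕ → ℝ) (hμ : ∀ r k, 0 ≤ μ r k) (ν : Fin 3 → ℕ) : 0 ≤ wt μ ν :=
  Finset.prod_nonneg fun r _ => hμ r _

theorem wt_pos_coord (μ : Fin 3 → ℕ → ℝ) (hμ : ∀ r k, 0 ≤ μ r k) {ν : Fin 3 → ℕ}
    (h : 0 < wt μ ν) (r : Fin 3) : 0 < μ r (ν r) := by
  rcases (hμ r (ν r)).lt_or_eq with h' | h'
  · exact h'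
  · exfalso
    have : wt μ ν = 0 := Finset.prod_eq_zero (Finset.mem_univ r) h'.symm
    linarith

theorem lat_conn (μ : Fin 3 → ℕ → ℝ) (hμ : ∀ r k, 0 ≤ μ r k)
    (hint : ∀ r i j k, i ≤ j → j ≤ k → 0 < μ r i → 0 < μ r k → 0 < μ r j) (M : ℕ)
    (ν' : Fin 3 → ℕ) (hν' : ν' ∈ Finset.Nat.antidiagonalTuple 3 M) (hw' : 0 < wt μ ν') :
    ∀ (d : ℕ) (ν : Fin 3 → ℕ), ν ∈ Finset.Nat.antidiagonalTuple 3 M → 0 < wt μ ν →
      ∑ r, (ν r - ν' r) = d →
      Relation.ReflTransGen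
        (fun u v => latAdj u v ∧ v ∈ Finset.Nat.antidiagonalTuple 3 M ∧ 0 < wt μ v) ν ν' := by
  intro d
  induction d with
  | zero =>
    intro ν hν _ hd
    have h0 : ∀ r, ν r ≤ ν' r := by
      intro r
      have := (Finset.sum_eq_zero_iff.mp hd) r (Finset.mem_univ r)
      omega
    rw [Finset.Nat.mem_antidiagonalTuple, Fin.sum_univ_three] at hν hν'
    have e : ν = ν' := by
      funext r
      have h00 := h0 0
      have h01 := h0 1
      have h02 := h0 2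
      fin_cases r <;> simp <;> omega
    rw [e]
  | succ d ih =>
    intro ν hν hw hd
    have hν0 := hν
    have hν'0 := hν'
    rw [Finset.Nat.mem_antidiagonalTuple] at hν0 hν'0
    -- a coordinate with excess
    have hq : ∃ q, ν' q < ν q := by
      by_contra hcon
      have : ∀ r, ν r - ν' r = 0 := fun r => by
        have := not_exists.mp hcon r
        omega
      rw [Finset.sum_congr rfl (fun r _ => this r)] at hd
      simp at hd
    obtain ⟨q, hq⟩ := hq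
    have hp : ∃ p, ν p < ν' p := by
      by_contra hcon
      have hge : ∀ r, ν' r ≤ ν r := fun r => by
        have := not_exists.mp hcon r
        omega
      have hlt : ∑ r, ν' r < ∑ r, ν r :=
        Finset.sum_lt_sum (fun r _ => hge r) ⟨q, Finset.mem_univ q, hq⟩
      omega
    obtain ⟨p, hp⟩ := hp
    have hpq : p ≠ q := by
      rintro rfl
      omega
    obtain ⟨t, hpt, hqt⟩ := fin3_third p q hpq
    have hsum := fin3_sum (fun r => ν r) hpq hpt hqt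
    have hsum' := fin3_sum (fun r => ν' r) hpq hpt hqt
    have hmem : pt p q (ν p + 1) (ν q - 1) (ν t) ∈ Finset.Nat.antidiagonalTuple 3 M :=
      pt_mem hpq hpt hqt _ _ _ _ (by omega)
    have hpos : 0 < wt μ (pt p q (ν p + 1) (ν q - 1) (ν t)) := by
      rw [wt_pt μ hpq hpt hqt]
      have h1 : 0 < μ p (ν p + 1) :=
        hint p (ν p) (ν p + 1) (ν' p) (by omega) (by omega) (wt_pos_coord μ hμ hw p)
          (wt_pos_coord μ hμ hw' p)
      have h2 : 0 < μ q (ν q - 1) :=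
        hint q (ν' q) (ν q - 1) (ν q) (by omega) (by omega) (wt_pos_coord μ hμ hw' q)
          (wt_pos_coord μ hμ hw q)
      have h3 : 0 < μ t (ν t) := wt_pos_coord μ hμ hw t
      positivity
    have hadj : latAdj ν (pt p q (ν p + 1) (ν q - 1) (ν t)) := by
      refine ⟨p, q, hpq, pt_p _ _ _ _ _, ?_, ?_⟩
      · rw [pt_q hpq]
        omega
      · intro r hrp hrq
        rcases fin3_cases p q t hpq hpt hqt r with h | h | h
        · exact absurd h hrp
        · exact absurd h hrq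
        · rw [h, pt_t hpt hqt]
    have hd' : ∑ r, (pt p q (ν p + 1) (ν q - 1) (ν t) r - ν' r) = d := by
      rw [fin3_sum _ hpq hpt hqt, pt_p, pt_q hpq, pt_t hpt hqt]
      rw [fin3_sum _ hpq hpt hqt] at hd
      omega
    exact Relation.ReflTransGen.head ⟨hadj, hmem, hpos⟩ (ih _ hmem hpos hd')

theorem wcexp_seg (μ : Fin 3 → ℕ → ℝ) (hμ : ∀ r k, 0 ≤ μ r k) (M : ℕ) (F : (Fin 3 → ℕ) → ℝ)
    {p q t : Fin 3} (hpq : p ≠ q) (hpt : p ≠ t) (hqt : q ≠ t) {ν : Fin 3 → ℕ}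
    (hw : 0 < wt μ ν) (m : ℕ) (hm : ν p + m = M) :
    wcexp (Finset.Nat.antidiagonalTuple 3 M) (wt μ) (fun ξ => ξ p) F ν
      = (∑ k ∈ range (m + 1), (μ q k * μ t (m - k)) * F (pt p q (ν p) k (m - k))) /
        (∑ k ∈ range (m + 1), μ q k * μ t (m - k)) := by
  have hm' : M - ν p = m := by omega
  have hpos : 0 < μ p (ν p) := wt_pos_coord μ hμ hw p
  have e1 : ∑ ξ ∈ (Finset.Nat.antidiagonalTuple 3 M).filter (fun ξ => ξ p = ν p), wt μ ξ * F ξ
      = μ p (ν p) * ∑ k ∈ range (m + 1), (μ q k * μ t (m - k)) * F (pt p q (ν p) k (m - k)) := by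
    rw [seg_sum M hpq hpt hqt (ν p) (by omega), hm', Finset.mul_sum]
    refine Finset.sum_congr rfl fun k _ => ?_
    rw [wt_pt μ hpq hpt hqt]
    ring
  have e2 : ∑ ξ ∈ (Finset.Nat.antidiagonalTuple 3 M).filter (fun ξ => ξ p = ν p), wt μ ξ
      = μ p (ν p) * ∑ k ∈ range (m + 1), μ q k * μ t (m - k) := by
    rw [seg_sum M hpq hpt hqt (ν p) (by omega), hm', Finset.mul_sum]
    refine Finset.sum_congr rfl fun k _ => ?_
    rw [wt_pt μ hpq hpt hqt]
    ring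
  have e0 : wcexp (Finset.Nat.antidiagonalTuple 3 M) (wt μ) (fun ξ => ξ p) F ν
      = (∑ ξ ∈ (Finset.Nat.antidiagonalTuple 3 M).filter (fun ξ => ξ p = ν p), wt μ ξ * F ξ) /
        (∑ ξ ∈ (Finset.Nat.antidiagonalTuple 3 M).filter (fun ξ => ξ p = ν p), wt μ ξ) := rfl
  rw [e0, e1, e2, mul_div_mul_left _ _ hpos.ne']

theorem seg_contr (μ : Fin 3 → ℕ → ℝ) (hμ : ∀ r k, 0 ≤ μ r k)
    (hlc : ∀ r k, μ r k * μ r (k + 2) ≤ μ r (k + 1) ^ 2)
    (hint : ∀ r i j k, i ≤ j → j ≤ k → 0 < μ r i → 0 < μ r k → 0 < μ r j)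
    (M : ℕ) (F : (Fin 3 → ℕ) → ℝ) (B : ℝ)
    (hLip : ∀ x ∈ Finset.Nat.antidiagonalTuple 3 M, ∀ y ∈ Finset.Nat.antidiagonalTuple 3 M,
      0 < wt μ x → 0 < wt μ y → latAdj x y → |F x - F y| ≤ B)
    {p q t : Fin 3} (hpq : p ≠ q) (hpt : p ≠ t) (hqt : q ≠ t) {ν ν' : Fin 3 → ℕ}
    (hν : ν ∈ Finset.Nat.antidiagonalTuple 3 M) (hν' : ν' ∈ Finset.Nat.antidiagonalTuple 3 M)
    (hw : 0 < wt μ ν) (hw' : 0 < wt μ ν') (hstep : ν' p = ν p + 1) :
    |wcexp (Finset.Nat.antidiagonalTuple 3 M) (wt μ) (fun ξ => ξ p) F ν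
      - wcexp (Finset.Nat.antidiagonalTuple 3 M) (wt μ) (fun ξ => ξ p) F ν'| ≤ B := by
  have hν0 := hν
  have hν'0 := hν'
  rw [Finset.Nat.mem_antidiagonalTuple, fin3_sum _ hpq hpt hqt] at hν0 hν'0
  obtain ⟨n, hn⟩ : ∃ n, ν p + 1 + n = M := ⟨M - (ν p + 1), by omega⟩
  rw [wcexp_seg μ hμ M F hpq hpt hqt hw (n + 1) (by omega),
    wcexp_seg μ hμ M F hpq hpt hqt hw' n (by omega), hstep]
  have hpp : 0 < μ p (ν p) := wt_pos_coord μ hμ hw p
  have hpp' : 0 < μ p (ν p + 1) := hstep ▸ wt_pos_coord μ hμ hw' p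
  have pwq := pairwise_of_logconcave (μ q) (hμ q) (hlc q) (hint q)
  have pwt := pairwise_of_logconcave (μ t) (hμ t) (hlc t) (hint t)
  refine coupling_bound n (fun k => μ q k * μ t (n + 1 - k)) (fun k => μ q k * μ t (n - k))
    (fun k => F (pt p q (ν p) k (n + 1 - k))) (fun k => F (pt p q (ν p + 1) k (n - k))) B
    (fun k => mul_nonneg (hμ q _) (hμ t _)) (fun k => mul_nonneg (hμ q _) (hμ t _))
    ?_ ?_ ?_ ?_ ?_ ?_
  · intro i j hij hjn
    have h := pwt (n - j) (n - i) (by omega)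
    have e1 : n + 1 - i = n - i + 1 := by omega
    have e2 : n + 1 - j = n - j + 1 := by omega
    simp only [e1, e2]
    have hnn : 0 ≤ μ q i * μ q j := mul_nonneg (hμ q _) (hμ q _)
    calc μ q i * μ t (n - i + 1) * (μ q j * μ t (n - j))
        = (μ q i * μ q j) * (μ t (n - j) * μ t (n - i + 1)) := by ring
      _ ≤ (μ q i * μ q j) * (μ t (n - j + 1) * μ t (n - i)) :=
          mul_le_mul_of_nonneg_left h hnn
      _ = μ q j * μ t (n - j + 1) * (μ q i * μ t (n - i)) := by ring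
  · intro i j hij hjn
    have h := pwq i j hij
    have e1 : n + 1 - (j + 1) = n - j := by omega
    have e2 : n + 1 - (i + 1) = n - i := by omega
    simp only [e1, e2]
    have hnn : 0 ≤ μ t (n - i) * μ t (n - j) := mul_nonneg (hμ t _) (hμ t _)
    calc μ q i * μ t (n - i) * (μ q (j + 1) * μ t (n - j))
        = (μ t (n - i) * μ t (n - j)) * (μ q i * μ q (j + 1)) := by ring
      _ ≤ (μ t (n - i) * μ t (n - j)) * (μ q (i + 1) * μ q j) :=
          mul_le_mul_of_nonneg_left h hnn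
      _ = μ q (i + 1) * μ t (n - i) * (μ q j * μ t (n - j)) := by ring
  · intro k hk hak hbk
    refine hLip _ (pt_mem hpq hpt hqt _ _ _ _ (by omega)) _
      (pt_mem hpq hpt hqt _ _ _ _ (by omega)) ?_ ?_ ?_
    · rw [wt_pt μ hpq hpt hqt, mul_assoc]
      exact mul_pos hpp hak
    · rw [wt_pt μ hpq hpt hqt, mul_assoc]
      exact mul_pos hpp' hbk
    · refine ⟨p, t, hpt, ?_, ?_, ?_⟩
      · rw [pt_p, pt_p]
      · rw [pt_t hpt hqt, pt_t hpt hqt]
        omega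
      · intro r hrp hrt
        rcases fin3_cases p q t hpq hpt hqt r with h | h | h
        · exact absurd h hrp
        · rw [h, pt_q hpq, pt_q hpq]
        · exact absurd h hrt
  · intro k hk hak hbk
    have e1 : n + 1 - (k + 1) = n - k := by omega
    rw [e1] at hak ⊢
    refine hLip _ (pt_mem hpq hpt hqt _ _ _ _ (by omega)) _
      (pt_mem hpq hpt hqt _ _ _ _ (by omega)) ?_ ?_ ?_
    · rw [wt_pt μ hpq hpt hqt, mul_assoc]
      exact mul_pos hpp hak
    · rw [wt_pt μ hpq hpt hqt, mul_assoc]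
      exact mul_pos hpp' hbk
    · refine ⟨p, q, hpq, ?_, ?_, ?_⟩
      · rw [pt_p, pt_p]
      · rw [pt_q hpq, pt_q hpq]
      · intro r hrp hrq
        rcases fin3_cases p q t hpq hpt hqt r with h | h | h
        · exact absurd h hrp
        · exact absurd h hrq
        · rw [h, pt_t hpt hqt, pt_t hpt hqt]
  · have hmem : ν q ∈ range (n + 2) := by
      rw [Finset.mem_range]
      omega
    have hpos : 0 < μ q (ν q) * μ t (n + 1 - ν q) := by
      have e : n + 1 - ν q = ν t := by omega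
      rw [e]
      exact mul_pos (wt_pos_coord μ hμ hw q) (wt_pos_coord μ hμ hw t)
    exact lt_of_lt_of_le hpos
      (Finset.single_le_sum (f := fun k => μ q k * μ t (n + 1 - k))
        (fun k _ => mul_nonneg (hμ q _) (hμ t _)) hmem)
  · have hmem : ν' q ∈ range (n + 1) := by
      rw [Finset.mem_range]
      omega
    have hpos : 0 < μ q (ν' q) * μ t (n - ν' q) := by
      have e : n - ν' q = ν' t := by omega
      rw [e]
      exact mul_pos (wt_pos_coord μ hμ hw' q) (wt_pos_coord μ hμ hw' t)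
    exact lt_of_lt_of_le hpos
      (Finset.single_le_sum (f := fun k => μ q k * μ t (n - k))
        (fun k _ => mul_nonneg (hμ q _) (hμ t _)) hmem)

theorem lat_contr (μ : Fin 3 → ℕ → ℝ) (hμ : ∀ r k, 0 ≤ μ r k)
    (hlc : ∀ r k, μ r k * μ r (k + 2) ≤ μ r (k + 1) ^ 2)
    (hint : ∀ r i j k, i ≤ j → j ≤ k → 0 < μ r i → 0 < μ r k → 0 < μ r j)
    (M : ℕ) (F : (Fin 3 → ℕ) → ℝ) (B : ℝ)
    (hLip : ∀ x ∈ Finset.Nat.antidiagonalTuple 3 M, ∀ y ∈ Finset.Nat.antidiagonalTuple 3 M,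
      0 < wt μ x → 0 < wt μ y → latAdj x y → |F x - F y| ≤ B) :
    ∀ x ∈ Finset.Nat.antidiagonalTuple 3 M, ∀ y ∈ Finset.Nat.antidiagonalTuple 3 M,
      0 < wt μ x → 0 < wt μ y → latAdj x y →
      |(∑ r, wcexp (Finset.Nat.antidiagonalTuple 3 M) (wt μ) (fun ν => ν r) F x)
        - (∑ r, wcexp (Finset.Nat.antidiagonalTuple 3 M) (wt μ) (fun ν => ν r) F y)| ≤ 2 * B := by
  intro x hx y hy hwx hwy hadj
  obtain ⟨p, q, hpq, h1, h2, h3⟩ := hadj
  obtain ⟨t, hpt, hqt⟩ := fin3_third p q hpq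
  rw [fin3_sum _ hpq hpt hqt, fin3_sum _ hpq hpt hqt]
  have hP := seg_contr μ hμ hlc hint M F B hLip hpq hpt hqt hx hy hwx hwy h1
  have hQ := seg_contr μ hμ hlc hint M F B hLip hpq.symm hqt hpt hy hx hwy hwx h2
  have hT : wcexp (Finset.Nat.antidiagonalTuple 3 M) (wt μ) (fun ν => ν t) F x
      = wcexp (Finset.Nat.antidiagonalTuple 3 M) (wt μ) (fun ν => ν t) F y :=
    wcexp_congr_label _ _ _ F (h3 t hpt.symm hqt.symm).symm
  rw [hT]
  rw [abs_le] at hP hQ ⊢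
  constructor <;> linarith [hP.1, hP.2, hQ.1, hQ.2]

/-- Three log-concave sites with conserved sum: the variance of a sum of
functions of the single coordinates is at most twice the sum of the variances. -/
theorem macro_lemma (μ : Fin 3 → ℕ → ℝ) (hμ : ∀ r k, 0 ≤ μ r k)
    (hlc : ∀ r k, μ r k * μ r (k + 2) ≤ μ r (k + 1) ^ 2)
    (hint : ∀ r i j k, i ≤ j → j ≤ k → 0 < μ r i → 0 < μ r k → 0 < μ r j)
    (M : ℕ) (G : Fin 3 → ℕ → ℝ) :
    let T := Finset.Nat.antidiagonalTuple 3 M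
    let w : (Fin 3 → ℕ) → ℝ := fun ν => ∏ r, μ r (ν r)
    let var : ((Fin 3 → ℕ) → ℝ) → ℝ := fun F =>
      (∑ ν ∈ T, w ν) * (∑ ν ∈ T, w ν * F ν ^ 2) - (∑ ν ∈ T, w ν * F ν) ^ 2
    var (fun ν => ∑ r, G r (ν r)) ≤ 2 * ∑ r, var (fun ν => G r (ν r)) := by
  intro T w var
  exact wtv2_of_contraction (Finset.Nat.antidiagonalTuple 3 M) (wt μ)
    (fun ν _ => wt_nonneg μ hμ ν) (fun r ν => ν r) latAdj 2 (by norm_num)
    (fun x hx y hy hwx hwy => lat_conn μ hμ hint M y hy hwy _ x hx hwx rfl)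
    (fun F B hLip => lat_contr μ hμ hlc hint M F B hLip) G

end Lattice

end KTV.H8
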